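import Mathlib

/-!
Pool job P226-PB-T1 (helper18): the variational bound
`∑ i, ‖∫ x in A i, x‖ ^ 2 ≤ ∫ max_i ⟪x, z i⟫` for a finite measurable partition of Gaussian space,
where `z i = ∫ x in A i, x`.
-/

namespace Vale.Agent.Lib.P226.H18

open MeasureTheory ProbabilityTheory

/-- General form: a finite measure with integrable identity on a finite-dimensional inner
product space, a finite measurable partition, and arbitrary vectors `z i`. -/
theorem sum_inner_le_integral_sup {E : Type*} [NormedAddCommGroup E] [InnerProductSpace ℝ E]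
    [MeasurableSpace E] [BorelSpace E] [SecondCountableTopology E] [CompleteSpace E]
    (μ : Measure E) [IsFiniteMeasure μ] (hint : Integrable (fun x : E => x) μ)
    (m : ℕ) (A : Fin (m + 1) → Set E)
    (hA : ∀ i, MeasurableSet (A i)) (hdisj : ∀ i j, i ≠ j → Disjoint (A i) (A j))
    (hcover : ⋃ i, A i = Set.univ) (z : Fin (m + 1) → E) :
    ∑ i, inner ℝ (∫ x in A i, x ∂μ) (z i)
      ≤ ∫ x, Finset.univ.sup' Finset.univ_nonempty (fun i => inner ℝ x (z i)) ∂μ := by
  set g : E → ℝ := fun x => Finset.univ.sup' Finset.univ_nonempty (fun i => inner ℝ x (z i))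
    with hg
  have hgcont : Continuous g := by
    rw [hg]
    exact Continuous.finset_sup'_apply Finset.univ_nonempty (fun i _ => by fun_prop)
  have hbound : ∀ x, ‖g x‖ ≤ (∑ i, ‖z i‖) * ‖x‖ := by
    intro x
    rw [Real.norm_eq_abs, abs_le]
    have hle : ∀ i, |inner ℝ x (z i)| ≤ (∑ i, ‖z i‖) * ‖x‖ := by
      intro i
      calc |inner ℝ x (z i)| ≤ ‖x‖ * ‖z i‖ := abs_real_inner_le_norm _ _
        _ ≤ ‖x‖ * ∑ i, ‖z i‖ := by
          apply mul_le_mul_of_nonneg_left _ (norm_nonneg _)
          exact Finset.single_le_sum (f := fun i => ‖z i‖) (fun i _ => norm_nonneg _)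
            (Finset.mem_univ i)
        _ = (∑ i, ‖z i‖) * ‖x‖ := mul_comm _ _
    constructor
    · have h0 := Finset.le_sup' (fun i => inner ℝ x (z i)) (Finset.mem_univ (0 : Fin (m + 1)))
      have h1 := (abs_le.mp (hle 0)).1
      exact le_trans h1 h0
    · apply Finset.sup'_le
      intro i _
      exact (abs_le.mp (hle i)).2
  have hgint : Integrable g μ := by
    refine Integrable.mono' (hint.norm.const_mul (∑ i, ‖z i‖)) hgcont.aestronglyMeasurable ?_
    exact Filter.Eventually.of_forall hbound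
  have hsplit : ∫ x, g x ∂μ = ∑ i, ∫ x in A i, g x ∂μ := by
    rw [← integral_iUnion_fintype hA (fun i j hij => hdisj i j hij)
      (fun i => hgint.integrableOn), hcover, Measure.restrict_univ]
  rw [hsplit]
  apply Finset.sum_le_sum
  intro i _
  have h1 : inner ℝ (∫ x in A i, x ∂μ) (z i) = ∫ x in A i, inner ℝ x (z i) ∂μ := by
    rw [real_inner_comm, ← integral_inner hint.integrableOn (z i)]
    congr 1
    ext x
    exact real_inner_comm _ _
  rw [h1]
  apply setIntegral_mono_on _ hgint.integrableOn (hA i)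
  · intro x _
    exact Finset.le_sup' (fun i => inner ℝ x (z i)) (Finset.mem_univ i)
  · exact (hint.integrableOn.inner_const (z i))

/-- Job P226-PB-T1, exact statement. -/
theorem sum_sq_le_integral_sup (d m : ℕ) (A : Fin (m + 1) → Set (EuclideanSpace ℝ (Fin d)))
    (hA : ∀ i, MeasurableSet (A i)) (hdisj : ∀ i j, i ≠ j → Disjoint (A i) (A j))
    (hcover : ⋃ i, A i = Set.univ) :
    ∑ i, ‖∫ x in A i, x ∂(stdGaussian (EuclideanSpace ℝ (Fin d)))‖ ^ 2
      ≤ ∫ x, Finset.univ.sup' Finset.univ_nonempty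
          (fun i => inner ℝ x (∫ x in A i, x ∂(stdGaussian (EuclideanSpace ℝ (Fin d)))))
          ∂(stdGaussian (EuclideanSpace ℝ (Fin d))) := by
  have hint : Integrable (fun x : EuclideanSpace ℝ (Fin d) => x)
      (stdGaussian (EuclideanSpace ℝ (Fin d))) := IsGaussian.integrable_id
  have h := sum_inner_le_integral_sup (stdGaussian (EuclideanSpace ℝ (Fin d))) hint m A hA hdisj
    hcover (fun i => ∫ x in A i, x ∂(stdGaussian (EuclideanSpace ℝ (Fin d))))
  simpa only [real_inner_self_eq_norm_sq] using h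

end Vale.Agent.Lib.P226.H18
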